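import Vale.Agent.P184.TreeVanish
import Vale.Agent.P184.Lipschitz
import Vale.Agent.P184.LocallyLinear
import Vale.Agent.P184.Mean

namespace Vale.Agent.Results.P184.CharacterVanishing

theorem result :
    ∀ (G : Type) [Group G] (q : ℕ) (e : G → Matrix (Fin q) (Fin q) ℂ),
      (∀ i j, Summable fun x => ‖e x i j‖) →
      (∀ x i j, ∑' y, ∑ k, e y i k * e (y⁻¹ * x) k j = e x i j) →
      (∀ (g : G) (H : Subgroup G), H.FiniteIndex → ∀ (hg : g ∈ H),
          Vale.Agent.P184.Detected (⟨g, hg⟩ : H) →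
          ∑' x : {x : G // IsConj g x}, ∑ i, e x.1 i i = 0) ∧
      ((∀ Γ : Subgroup G, Γ.FG →
            {c : ConjClasses Γ | ∃ x, ConjClasses.mk x = c ∧ IsOfFinOrder x}.Finite ∧
            ∀ x : Γ, ¬ IsOfFinOrder x → Vale.Agent.P184.Detected x) →
        ∃ F : Set (ConjClasses G), F.Finite ∧
          (∀ c ∈ F, ∃ x, ConjClasses.mk x = c ∧ IsOfFinOrder x) ∧
          ∀ g : G, ConjClasses.mk g ∉ F →
            ∑' x : {x : G // IsConj g x}, ∑ i, e x.1 i i = 0) ∧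
      (∀ (g : G) (H : Subgroup G), H.FiniteIndex → ∀ (hg : g ∈ H) (V : Type) (T : SimpleGraph V),
          T.IsTree → ∀ (ρ : H →* (T ≃g T)), (∀ v : V, ρ ⟨g, hg⟩ v ≠ v) →
          (∀ v w : V, T.Adj v w → ρ ⟨g, hg⟩ v = w → ρ ⟨g, hg⟩ w ≠ v) →
          ∑' x : {x : G // IsConj g x}, ∑ i, e x.1 i i = 0) ∧
      (∀ (g : G) (H : Subgroup G), H.FiniteIndex → ∀ (hg : g ∈ H),
          (∀ Γ : Subgroup H, Γ.FG → ∀ hgΓ : (⟨g, hg⟩ : H) ∈ Γ,
            ∃ (K : Type) (_ : Field K) (n : ℕ) (π : Γ →* GL (Fin n) K), ∀ m : ℕ, 0 < m →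
              ¬ IsNilpotent ((π ⟨⟨g, hg⟩, hgΓ⟩ : Matrix (Fin n) (Fin n) K) ^ m - 1)) →
          ∑' x : {x : G // IsConj g x}, ∑ i, e x.1 i i = 0) ∧
      ((∀ Γ : Subgroup G, Γ.FG → ∃ (K : Type) (_ : Field K) (p : ℕ) (n : ℕ)
            (π : Γ →* GL (Fin n) K), p.Prime ∧ CharP K p ∧ Function.Injective π) →
        ∀ g : G, ¬ IsOfFinOrder g →
          ∑' x : {x : G // IsConj g x}, ∑ i, e x.1 i i = 0) := by
  intro G _ q e he hi
  refine ⟨fun g H hH hg hdet => ?_, fun hall => ?_, fun g H hH hg V T hT ρ hfix hinv => ?_,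
    fun g H hH hg hrep => ?_, fun hrep g hg => ?_⟩
  · exact (tsum_subtype {x : G | IsConj g x} fun y => ∑ i, e y i i).trans
      (Vale.Agent.P184.trace_eq_zero_of_detected_subgroup e he hi g H hH hg hdet)
  · obtain ⟨F, hF, hfo, hvan⟩ := Vale.Agent.P184.exists_finite_support e he hi hall
    exact ⟨F, hF, hfo, fun g hg =>
      (tsum_subtype {x : G | IsConj g x} fun y => ∑ i, e y i i).trans (hvan g hg)⟩
  · exact (tsum_subtype {x : G | IsConj g x} fun y => ∑ i, e y i i).trans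
      (Vale.Agent.P184.Tree.trace_eq_zero_of_tree_subgroup e he hi g H hH hg hT ρ hfix hinv)
  · classical
    exact (tsum_subtype {x : G | IsConj g x} fun y => ∑ i, e y i i).trans
      (Vale.Agent.P184.trace_eq_zero_of_subgroup e he hi g H hH hg fun R hR hRi =>
        Vale.Agent.P184.trace_eq_zero_of_locally_linear R hR hRi _ hrep)
  · exact (tsum_subtype {x : G | IsConj g x} fun y => ∑ i, e y i i).trans
      (Vale.Agent.P184.trace_eq_zero_of_locally_linear_charP e he hi g hrep hg)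

end Vale.Agent.Results.P184.CharacterVanishing
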